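import Vale.Agent.P182.H533.Core

/-!
# The glued null case: the flows fill the glue

`S a` are self adjoint, `Ui`, `Uj` two orthogonal stable blocks, `I` their isotropic nilpotent
part.  A triple `T` of tensors in `Ui ⊗ Uj` (endomorphisms with image in `Ui` which kill
`perp Uj`) is admissible if `∑ [S a, T a] = 0` and `[S a, T a]` maps `Uj` to `I`.  Every admissible
triple comes with a flow `n` which moves `Uj` into `Uj + (Ui ⊓ I)`.  Then the images of `Uj ⊓ I`
under the flows, together with `Uj ⊓ I`, span a space containing `Ui ⊓ I`.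
(Row G7 of the plan, (N) of helper563, (8) of helper181.)
-/

namespace Vale.Agent.P182.H58.Glue7

open Module Vale.Agent.P182.H533

section st

variable {L V : Type*} [Field L] [AddCommGroup V] [Module L V]

/-- the span of the images -/
def st (S : Fin 3 → End L V) (X : Submodule L V) : Submodule L V := ⨆ a, X.map (S a)

theorem mem_st {S : Fin 3 → End L V} {X : Submodule L V} (a : Fin 3) {v : V} (hv : v ∈ X) :
    S a v ∈ st S X := Submodule.mem_iSup_of_mem a (Submodule.mem_map_of_mem hv)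

theorem st_le {S : Fin 3 → End L V} {X Y : Submodule L V} (h : ∀ a, ∀ v ∈ X, S a v ∈ Y) :
    st S X ≤ Y := by
  refine iSup_le fun a => ?_
  rintro _ ⟨v, hv, rfl⟩
  exact h a v hv

theorem st_mono (S : Fin 3 → End L V) : Monotone (st S) := fun _ _ h =>
  st_le fun a _ hv => mem_st a (h hv)

theorem st_sup (S : Fin 3 → End L V) (X Y : Submodule L V) : st S (X ⊔ Y) = st S X ⊔ st S Y := by
  apply le_antisymm
  · refine st_le fun a v hv => ?_
    obtain ⟨x, hx, y, hy, rfl⟩ := Submodule.mem_sup.mp hv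
    rw [map_add]
    exact Submodule.add_mem_sup (mem_st a hx) (mem_st a hy)
  · exact sup_le (st_mono S le_sup_left) (st_mono S le_sup_right)

/-- rank one operators: the tensor `x ⊗ y` -/
def rk (q : V →ₗ[L] V →ₗ[L] L) (x y : V) : End L V := (q y).smulRight x

theorem rk_apply (q : V →ₗ[L] V →ₗ[L] L) (x y v : V) : rk q x y v = q y v • x := rfl

theorem mul_rk (q : V →ₗ[L] V →ₗ[L] L) (A : End L V) (x y : V) :
    A * rk q x y = rk q (A x) y := by
  ext v
  rw [Module.End.mul_apply, rk_apply, rk_apply, map_smul]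

theorem rk_mul {q : V →ₗ[L] V →ₗ[L] L} {A : End L V} (hA : IsSA q A) (x y : V) :
    rk q x y * A = rk q x (A y) := by
  ext v
  rw [Module.End.mul_apply, rk_apply, rk_apply, hA]

/-- a section of the sum of the `S a` on a block -/
theorem exists_sec {S : Fin 3 → End L V} {U : Submodule L V} (hU : st S U = U) :
    ∃ ξ : Fin 3 → End L V, (∀ a v, ξ a v ∈ U) ∧ ∀ u ∈ U, ∑ a, S a (ξ a u) = u := by
  classical
  have hmem : ∀ a, ∀ u ∈ U, S a u ∈ U := fun a u hu => by
    have := mem_st (S := S) a hu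
    rwa [hU] at this
  let σ : (Fin 3 → U) →ₗ[L] U := ∑ a, ((S a).restrict (hmem a)) ∘ₗ LinearMap.proj a
  have hσ : ∀ w, (σ w : V) = ∑ a, S a (w a) := fun w => by
    simp [σ, LinearMap.restrict_apply]
  have hsurj : LinearMap.range σ = ⊤ := by
    rw [eq_top_iff]
    rintro ⟨u, hu⟩ -
    have h1 : st S U ≤ (LinearMap.range σ).map U.subtype := by
      refine st_le fun a v hv => ⟨σ (Pi.single a ⟨v, hv⟩), ⟨_, rfl⟩, ?_⟩
      rw [Submodule.subtype_apply, hσ, Finset.sum_eq_single a]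
      · rw [Pi.single_eq_same]
      · intro b _ hb
        rw [Pi.single_eq_of_ne hb, Submodule.coe_zero, map_zero]
      · intro h; exact absurd (Finset.mem_univ _) h
    rw [hU] at h1
    obtain ⟨y, hy, hyu⟩ := h1 hu
    have : y = ⟨u, hu⟩ := Subtype.ext hyu
    rwa [← this]
  obtain ⟨ρ, hρ⟩ := LinearMap.exists_rightInverse_of_surjective σ hsurj
  obtain ⟨π, hπ⟩ := LinearMap.exists_leftInverse_of_injective U.subtype
    (Submodule.ker_subtype U)
  refine ⟨fun a => U.subtype ∘ₗ LinearMap.proj a ∘ₗ ρ ∘ₗ π, fun a v => (ρ (π v) a).2,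
    fun u hu => ?_⟩
  have h1 : π u = ⟨u, hu⟩ := LinearMap.congr_fun hπ ⟨u, hu⟩
  have h2 := hσ (ρ (π u))
  have h3 : σ (ρ (π u)) = π u := LinearMap.congr_fun hρ (π u)
  have h4 : (π u : V) = u := by rw [h1]
  rw [h3, h4] at h2
  exact h2.symm

variable [FiniteDimensional L V]

/-- solving `∑ F a * S a = K` -/
theorem exists_div {q : V →ₗ[L] V →ₗ[L] L} (hq : IsForm q) {S : Fin 3 → End L V}
    (hS : ∀ a, IsSA q (S a)) {U : Submodule L V} (hU : st S U = U) (K : End L V)
    (hK : ∀ v ∈ perp q U, K v = 0) :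
    ∃ F : Fin 3 → End L V, (∀ a v, ∃ w, F a v = K w) ∧ (∀ a, ∀ v ∈ perp q U, F a v = 0) ∧
      ∑ a, F a * S a = K := by
  obtain ⟨ξ, hξ1, hξ2⟩ := exists_sec hU
  have hη : ∀ a, ∃ η : End L V, ∀ v w, q (η v) w = q v (ξ a w) := fun a =>
    hq.exists_end (q.compl₂ (ξ a))
  choose η hη using hη
  refine ⟨fun a => K * η a, fun a v => ⟨η a v, rfl⟩, fun a v hv => ?_, ?_⟩
  · have : η a v = 0 := hq.nondeg _ fun w => by rw [hη]; exact hv _ (hξ1 a w)
    rw [Module.End.mul_apply, this, map_zero]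
  · ext v
    rw [LinearMap.sum_apply]
    have h1 : ∀ a, (K * η a * S a) v = K (η a (S a v)) := fun a => rfl
    rw [Finset.sum_congr rfl fun a _ => h1 a, ← map_sum, ← sub_eq_zero, ← map_sub]
    apply hK
    intro w hw
    rw [map_sub, LinearMap.sub_apply, map_sum, LinearMap.sum_apply, sub_eq_zero]
    rw [Finset.sum_congr rfl fun a _ => (hη a (S a v) w)]
    rw [Finset.sum_congr rfl fun a _ => hS a v (ξ a w), ← map_sum, hξ2 w hw]

/-- the tail in `X ⊗ U` -/
theorem exists_tail1 {q : V →ₗ[L] V →ₗ[L] L} (hq : IsForm q) {S : Fin 3 → End L V}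
    (hS : ∀ a, IsSA q (S a)) {U : Submodule L V} (hU : st S U = U) (m : ℕ) :
    ∀ X : Submodule L V, st S X ≤ X → (st S)^[m] X = ⊥ → ∀ K : End L V, (∀ v, K v ∈ X) →
      (∀ v ∈ perp q U, K v = 0) → ∃ E : Fin 3 → End L V, (∀ a v, E a v ∈ X) ∧
        (∀ a, ∀ v ∈ perp q U, E a v = 0) ∧ ∑ a, (S a * E a - E a * S a) = K := by
  induction m with
  | zero =>
    intro X _ hX K hK1 _
    refine ⟨0, fun a v => zero_mem _, fun a v _ => rfl, ?_⟩
    have hK0 : K = 0 := by
      ext v
      have h1 := hK1 v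
      rw [Function.iterate_zero, id_eq] at hX
      rw [hX, Submodule.mem_bot] at h1
      exact h1
    rw [hK0]
    simp
  | succ m ih =>
    intro X hX hXm K hK1 hK2
    obtain ⟨F, hF1, hF2, hF3⟩ := exists_div hq hS hU (-K)
      (fun v hv => by rw [LinearMap.neg_apply, hK2 v hv, neg_zero])
    have hFX : ∀ a v, F a v ∈ X := fun a v => by
      obtain ⟨w, hw⟩ := hF1 a v
      rw [hw]
      exact X.neg_mem (hK1 w)
    obtain ⟨E, hE1, hE2, hE3⟩ := ih (st S X) (st_mono S hX)
      (by rw [← Function.iterate_succ_apply]; exact hXm) (-∑ a, S a * F a)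
      (fun v => by
        rw [LinearMap.neg_apply, LinearMap.sum_apply]
        exact Submodule.neg_mem _ (Submodule.sum_mem _ fun a _ => mem_st a (hFX a v)))
      (fun v hv => by
        rw [LinearMap.neg_apply, LinearMap.sum_apply, neg_eq_zero]
        refine Finset.sum_eq_zero fun a _ => ?_
        rw [Module.End.mul_apply, hF2 a v hv, map_zero])
    refine ⟨F + E, fun a v => X.add_mem (hFX a v) (hX (hE1 a v)), fun a v hv => ?_, ?_⟩
    · rw [Pi.add_apply, LinearMap.add_apply, hF2 a v hv, hE2 a v hv, add_zero]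
    · have h1 : ∀ a, S a * (F + E) a - (F + E) a * S a =
          S a * F a - F a * S a + (S a * E a - E a * S a) := fun a => by
        rw [Pi.add_apply, mul_add, add_mul]; abel
      rw [Finset.sum_congr rfl fun a _ => h1 a, Finset.sum_add_distrib, hE3,
        Finset.sum_sub_distrib, hF3]
      abel

omit [FiniteDimensional L V] in
/-- the tail in `U ⊗ Y` -/
theorem exists_tail2 {q : V →ₗ[L] V →ₗ[L] L} {S : Fin 3 → End L V}
    (hS : ∀ a, IsSA q (S a)) {U : Submodule L V} (hU : st S U = U) (m : ℕ) :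
    ∀ Y : Submodule L V, st S Y ≤ Y → (st S)^[m] Y = ⊥ → ∀ K : End L V, (∀ v, K v ∈ U) →
      (∀ v ∈ perp q Y, K v = 0) → ∃ E : Fin 3 → End L V, (∀ a v, E a v ∈ U) ∧
        (∀ a, ∀ v ∈ perp q Y, E a v = 0) ∧ ∑ a, (S a * E a - E a * S a) = K := by
  obtain ⟨ξ, hξ1, hξ2⟩ := exists_sec hU
  have hUs : ∀ a, ∀ u ∈ U, S a u ∈ U := fun a u hu => by
    have := mem_st (S := S) a hu
    rwa [hU] at this
  induction m with
  | zero =>
    intro Y _ hY K _ hK2
    refine ⟨0, fun a v => zero_mem _, fun a v _ => rfl, ?_⟩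
    have hK0 : K = 0 := by
      ext v
      apply hK2
      rw [Function.iterate_zero, id_eq] at hY
      rw [hY]
      intro w hw
      rw [(Submodule.mem_bot L).mp hw, map_zero]
    rw [hK0]
    simp
  | succ m ih =>
    intro Y hY hYm K hK1 hK2
    have hF2 : ∀ a, ∀ v ∈ perp q Y, ξ a (K v) = 0 := fun a v hv => by rw [hK2 v hv, map_zero]
    obtain ⟨E, hE1, hE2, hE3⟩ := ih (st S Y) (st_mono S hY)
      (by rw [← Function.iterate_succ_apply]; exact hYm) (∑ a, ξ a * K * S a)
      (fun v => by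
        rw [LinearMap.sum_apply]
        exact Submodule.sum_mem _ fun a _ => hξ1 a _)
      (fun v hv => by
        rw [LinearMap.sum_apply]
        refine Finset.sum_eq_zero fun a _ => ?_
        show ξ a (K (S a v)) = 0
        apply hF2
        intro w hw
        rw [hS]
        exact hv _ (mem_st a hw))
    refine ⟨fun a => ξ a * K + E a, fun a v => U.add_mem (hξ1 a _) (hE1 a v),
      fun a v hv => ?_, ?_⟩
    · rw [LinearMap.add_apply, Module.End.mul_apply, hF2 a v hv, hE2 a v, add_zero]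
      intro w hw
      exact hv w (hY hw)
    · have h1 : ∀ a, S a * (ξ a * K + E a) - (ξ a * K + E a) * S a =
          S a * (ξ a * K) - ξ a * K * S a + (S a * E a - E a * S a) := fun a => by
        rw [mul_add, add_mul]; abel
      rw [Finset.sum_congr rfl fun a _ => h1 a, Finset.sum_add_distrib, hE3,
        Finset.sum_sub_distrib]
      have h2 : ∑ a, S a * (ξ a * K) = K := by
        ext v
        rw [LinearMap.sum_apply]
        exact hξ2 _ (hK1 v)
      rw [h2]
      abel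

end st

section main

variable {L V : Type*} [Field L] [AddCommGroup V] [Module L V] [FiniteDimensional L V]

/-- admissible triples of tensors in `Ui ⊗ Uj` -/
structure Adm (q : V →ₗ[L] V →ₗ[L] L) (S : Fin 3 → End L V) (I Ui Uj : Submodule L V)
    (T : Fin 3 → End L V) : Prop where
  range : ∀ a v, T a v ∈ Ui
  ker : ∀ a, ∀ v ∈ perp q Uj, T a v = 0
  sum : ∑ a, (S a * T a - T a * S a) = 0
  comm : ∀ a, ∀ u ∈ Uj, S a (T a u) - T a (S a u) ∈ I

/-- the flow of a triple -/
structure Flow (S : Fin 3 → End L V) (I Ui Uj X : Submodule L V) (T : Fin 3 → End L V)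
    (n : V → V) : Prop where
  rule : ∀ a, ∀ u ∈ Uj, n (S a u) - S a (n u) - (T a (S a u) - S a (T a u)) ∈ Uj
  mem : ∀ u ∈ Uj, n u ∈ Uj ⊔ (Ui ⊓ I)
  memI : ∀ e ∈ Uj ⊓ I, n e ∈ I
  memX : ∀ e ∈ Uj ⊓ I, n e ∈ X

/-- the two blocks -/
structure Blk (q : V →ₗ[L] V →ₗ[L] L) (S : Fin 3 → End L V) (I Ui Uj : Submodule L V)
    (p : Fin 3 → ℕ) (N : ℕ) : Prop where
  form : IsForm q
  sa : ∀ a, IsSA q (S a)
  hi : st S Ui = Ui
  hj : st S Uj = Uj
  hI : st S I ≤ I
  hN : (st S)^[N] I = ⊥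
  orth : ∀ u ∈ Ui, ∀ v ∈ Uj, q u v = 0
  orthI : ∀ e ∈ I, ∀ u ∈ Ui, q e u = 0
  orthJ : ∀ e ∈ I, ∀ u ∈ Uj, q e u = 0
  pi : ∀ s, ∀ u ∈ Ui, (S s ^ p s) u ∈ I
  pj : ∀ s, ∀ u ∈ Uj, (S s ^ p s) u ∈ I

variable {q : V →ₗ[L] V →ₗ[L] L} {S : Fin 3 → End L V} {I Ui Uj : Submodule L V}
  {p : Fin 3 → ℕ} {N : ℕ}

omit [FiniteDimensional L V] in
theorem iter_le {X Y : Submodule L V} (h : X ≤ Y) (m : ℕ) : (st S)^[m] X ≤ (st S)^[m] Y :=
  (st_mono S).iterate m h

omit [FiniteDimensional L V] in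
theorem pow_mem {U : Submodule L V} (hU : ∀ a, ∀ u ∈ U, S a u ∈ U) (s : Fin 3) (k : ℕ) {u : V}
    (hu : u ∈ U) : (S s ^ k) u ∈ U := by
  induction k with
  | zero => simpa using hu
  | succ k ih => rw [pow_succ', Module.End.mul_apply]; exact hU s _ ih

omit [FiniteDimensional L V] in
/-- the commutator of the main part -/
theorem main_comm (hS : ∀ a, IsSA q (S a)) (s : Fin 3) (m : ℕ) (x y : V) :
    S s * (∑ k ∈ Finset.range m, rk q ((S s ^ (m - 1 - k)) x) ((S s ^ k) y)) -
      (∑ k ∈ Finset.range m, rk q ((S s ^ (m - 1 - k)) x) ((S s ^ k) y)) * S s =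
      rk q ((S s ^ m) x) y - rk q x ((S s ^ m) y) := by
  rw [Finset.mul_sum, Finset.sum_mul, ← Finset.sum_sub_distrib]
  have h1 : ∀ k ∈ Finset.range m,
      S s * rk q ((S s ^ (m - 1 - k)) x) ((S s ^ k) y) -
        rk q ((S s ^ (m - 1 - k)) x) ((S s ^ k) y) * S s =
      rk q ((S s ^ (m - k)) x) ((S s ^ k) y) -
        rk q ((S s ^ (m - (k + 1))) x) ((S s ^ (k + 1)) y) := by
    intro k hk
    have hk' := Finset.mem_range.mp hk
    rw [mul_rk, rk_mul (hS s), ← Module.End.mul_apply, ← pow_succ', ← Module.End.mul_apply,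
      ← pow_succ']
    have e1 : m - 1 - k + 1 = m - k := by omega
    have e2 : m - 1 - k = m - (k + 1) := by omega
    rw [e1, e2]
  rw [Finset.sum_congr rfl h1,
    Finset.sum_range_sub' (fun k => rk q ((S s ^ (m - k)) x) ((S s ^ k) y))]
  simp

/-- **An admissible triple with prescribed main part.** -/
theorem exists_adm (B : Blk q S I Ui Uj p N) (s : Fin 3) {x y : V} (hx : x ∈ Ui) (hy : y ∈ Uj) :
    ∃ T, Adm q S I Ui Uj T ∧ ∃ z : Fin 3 → V, (∀ a, z a ∈ Uj) ∧ ∀ a, ∀ u ∈ Uj,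
      T a (S a u) - S a (T a u) - ((q (z a) (S a u) - if a = s then q y u else 0) •
        (S s ^ p s) x) ∈ st S (Ui ⊓ I) := by
  classical
  have hUi : ∀ a, ∀ u ∈ Ui, S a u ∈ Ui := fun a u hu => B.hi ▸ mem_st (S := S) a hu
  have hUj : ∀ a, ∀ u ∈ Uj, S a u ∈ Uj := fun a u hu => B.hj ▸ mem_st (S := S) a hu
  have hIs : ∀ a, ∀ u ∈ I, S a u ∈ I := fun a u hu => B.hI (mem_st (S := S) a hu)
  set e := (S s ^ p s) x with he
  set f := (S s ^ p s) y with hf
  have heI : e ∈ I := B.pi s x hx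
  have hei : e ∈ Ui := pow_mem hUi s _ hx
  have hfI : f ∈ I := B.pj s y hy
  have hfj : f ∈ Uj := pow_mem hUj s _ hy
  obtain ⟨ξ, hξ1, hξ2⟩ := exists_sec B.hj
  set z : Fin 3 → V := fun a => ξ a y with hz
  have hzs : ∑ a, S a (z a) = y := hξ2 y hy
  have hstI : st S (Ui ⊓ I) ≤ Ui ⊓ I :=
    st_le fun a v hv => ⟨hUi a v hv.1, hIs a v hv.2⟩
  have hstJ : st S (Uj ⊓ I) ≤ Uj ⊓ I :=
    st_le fun a v hv => ⟨hUj a v hv.1, hIs a v hv.2⟩
  -- the tail in `(st I) ⊗ Uj`
  obtain ⟨E, hE1, hE2, hE3⟩ := exists_tail1 B.form B.sa B.hj N (st S (Ui ⊓ I))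
    (st_mono S hstI)
    (by
      rw [eq_bot_iff, ← B.hN]
      exact iter_le (hstI.trans inf_le_right) N)
    (-∑ a, rk q (S a e) (z a))
    (fun v => by
      rw [LinearMap.neg_apply, LinearMap.sum_apply]
      exact Submodule.neg_mem _ (Submodule.sum_mem _ fun a _ =>
        Submodule.smul_mem _ _ (mem_st a ⟨hei, heI⟩)))
    (fun v hv => by
      rw [LinearMap.neg_apply, LinearMap.sum_apply, neg_eq_zero]
      refine Finset.sum_eq_zero fun a _ => ?_
      rw [rk_apply, B.form.symm, hv _ (hξ1 a y), zero_smul])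
  -- the tail in `Ui ⊗ I`
  obtain ⟨F, hF1, hF2, hF3⟩ := exists_tail2 B.sa B.hi N (Uj ⊓ I) hstJ
    (by
      rw [eq_bot_iff, ← B.hN]
      exact iter_le inf_le_right N)
    (rk q x f)
    (fun v => Submodule.smul_mem _ _ hx)
    (fun v hv => by rw [rk_apply, B.form.symm, hv f ⟨hfj, hfI⟩, zero_smul])
  set M : End L V := ∑ k ∈ Finset.range (p s), rk q ((S s ^ (p s - 1 - k)) x) ((S s ^ k) y)
    with hM
  have hMr : ∀ v, M v ∈ Ui := fun v => by
    rw [hM, LinearMap.sum_apply]
    exact Submodule.sum_mem _ fun k _ => Submodule.smul_mem _ _ (pow_mem hUi s _ hx)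
  have hMk : ∀ v ∈ perp q Uj, M v = 0 := fun v hv => by
    rw [hM, LinearMap.sum_apply]
    refine Finset.sum_eq_zero fun k _ => ?_
    rw [rk_apply, B.form.symm, hv _ (pow_mem hUj s _ hy), zero_smul]
  have hMc : S s * M - M * S s = rk q e y - rk q x f := main_comm B.sa s (p s) x y
  set T : Fin 3 → End L V := fun a => (if a = s then M else 0) + rk q e (z a) + E a + F a
    with hT
  have hTa : ∀ a v, T a v = (if a = s then M v else 0) + q (z a) v • e + E a v + F a v := by
    intro a v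
    rw [hT]
    simp only [LinearMap.add_apply, rk_apply]
    congr 3
    split_ifs <;> rfl
  have hzk : ∀ a, ∀ v ∈ perp q Uj, q (z a) v = 0 := fun a v hv => by
    rw [B.form.symm]; exact hv _ (hξ1 a y)
  have hFu : ∀ a, ∀ u ∈ Uj, F a u = 0 := fun a u hu => hF2 a u fun w hw => by
    rw [B.form.symm]; exact B.orthJ w hw.2 u hu
  -- the commutator on `Uj`
  have hMu : ∀ u ∈ Uj, M (S s u) - S s (M u) = -(q y u • e) := by
    intro u hu
    have h1 := LinearMap.congr_fun hMc u
    rw [LinearMap.sub_apply, LinearMap.sub_apply, Module.End.mul_apply, Module.End.mul_apply,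
      rk_apply, rk_apply, B.orthJ f hfI u hu, zero_smul, sub_zero] at h1
    rw [← h1, neg_sub]
  have hkey : ∀ a, ∀ u ∈ Uj,
      T a (S a u) - S a (T a u) - ((q (z a) (S a u) - if a = s then q y u else 0) • e) =
        E a (S a u) - S a (E a u) - q (z a) u • S a e := by
    intro a u hu
    rw [hTa, hTa, hFu a u hu, hFu a _ (hUj a u hu)]
    by_cases has : a = s
    · subst has
      simp only [if_true]
      have h1 := hMu u hu
      rw [sub_eq_iff_eq_add] at h1
      rw [h1]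
      simp only [map_add, map_smul, map_zero]
      module
    · simp only [if_neg has, map_add, map_smul, map_zero]
      module
  have hEst : ∀ a v, E a v ∈ Ui ⊓ I := fun a v => hstI (hE1 a v)
  have hmem : ∀ a, ∀ u ∈ Uj,
      E a (S a u) - S a (E a u) - q (z a) u • S a e ∈ st S (Ui ⊓ I) := fun a u _ =>
    Submodule.sub_mem _ (Submodule.sub_mem _ (hE1 a _) (mem_st a (hEst a u)))
      (Submodule.smul_mem _ _ (mem_st a ⟨hei, heI⟩))
  refine ⟨T, ⟨fun a v => ?_, fun a v hv => ?_, ?_, fun a u hu => ?_⟩, z, fun a => hξ1 a y,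
    fun a u hu => ?_⟩
  · rw [hTa]
    refine Submodule.add_mem _ (Submodule.add_mem _ (Submodule.add_mem _ ?_
      (Submodule.smul_mem _ _ hei)) (hEst a v).1) (hF1 a v)
    split_ifs
    · exact hMr v
    · exact zero_mem _
  · rw [hTa, hzk a v hv, zero_smul, hE2 a v hv, hF2 a v fun w hw => hv w hw.1]
    split_ifs
    · rw [hMk v hv]; simp
    · simp
  · have h1 : ∀ a, S a * T a - T a * S a =
        (if a = s then S s * M - M * S s else 0) + (rk q (S a e) (z a) - rk q e (S a (z a))) +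
          (S a * E a - E a * S a) + (S a * F a - F a * S a) := by
      intro a
      rw [← mul_rk, ← rk_mul (B.sa a), hT]
      by_cases has : a = s
      · subst has
        simp only [if_true, mul_add, add_mul]
        abel
      · simp only [if_neg has, mul_add, add_mul, zero_add]
        abel
    rw [Finset.sum_congr rfl fun a _ => h1 a, Finset.sum_add_distrib, Finset.sum_add_distrib,
      Finset.sum_add_distrib, hE3, hF3, Finset.sum_ite_eq' Finset.univ s,
      if_pos (Finset.mem_univ s), hMc, Finset.sum_sub_distrib]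
    have h2 : ∑ a, rk q e (S a (z a)) = rk q e y := by
      ext v
      rw [LinearMap.sum_apply]
      simp only [rk_apply]
      rw [← Finset.sum_smul]
      congr 1
      rw [← hzs, map_sum, LinearMap.sum_apply]
    rw [h2]
    abel
  · have h1 := hkey a u hu
    rw [sub_eq_iff_eq_add] at h1
    have h2 : T a (S a u) - S a (T a u) ∈ I := by
      rw [h1]
      exact I.add_mem ((hstI (hmem a u hu)).2) (I.smul_mem _ heI)
    have h3 := I.neg_mem h2
    rwa [neg_sub] at h3
  · rw [hkey a u hu]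
    exact hmem a u hu

/-- **Row G7 (c).**  The flows fill the glue. -/
theorem glue_le (B : Blk q S I Ui Uj p N) (hp : ∀ s, 0 < p s)
    (hns : ∀ s, ∃ b ∈ Uj, ∃ b' ∈ Uj, q b' ((S s ^ (p s - 1)) b) ≠ 0)
    (hgen : ∀ X0 : Submodule L V, st S X0 ≤ X0 → (∀ s, ∀ u ∈ Ui, (S s ^ p s) u ∈ X0) →
      Ui ⊓ I ≤ X0)
    (X : Submodule L V) (hX : Uj ⊓ I ≤ X)
    (hflow : ∀ T, Adm q S I Ui Uj T → ∃ n, Flow S I Ui Uj X T n) : Ui ⊓ I ≤ X := by
  have hUi : ∀ a, ∀ u ∈ Ui, S a u ∈ Ui := fun a u hu => B.hi ▸ mem_st (S := S) a hu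
  have hUj : ∀ a, ∀ u ∈ Uj, S a u ∈ Uj := fun a u hu => B.hj ▸ mem_st (S := S) a hu
  have hIs : ∀ a, ∀ u ∈ I, S a u ∈ I := fun a u hu => B.hI (mem_st (S := S) a hu)
  have hstI : st S (Ui ⊓ I) ≤ Ui ⊓ I :=
    st_le fun a v hv => ⟨hUi a v hv.1, hIs a v hv.2⟩
  set Q : Submodule L V := (Uj ⊓ I) ⊔ Submodule.span L
    {y | ∃ T, Adm q S I Ui Uj T ∧ ∃ n, Flow S I Ui Uj X T n ∧ ∃ e ∈ Uj ⊓ I, y = n e} with hQ
  have hQX : Q ≤ X := by
    refine sup_le hX (Submodule.span_le.mpr ?_)
    rintro _ ⟨T, -, n, hn, e, he, rfl⟩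
    exact hn.memX e he
  have hTe : ∀ {T}, Adm q S I Ui Uj T → ∀ a, ∀ e ∈ I, T a e = 0 := fun hT a e he =>
    hT.ker a e fun w hw => B.orthJ e he w hw
  have hQS : st S Q ≤ Q := by
    rw [hQ, st_sup]
    refine sup_le ?_ ?_
    · exact le_sup_of_le_left (st_le fun a v hv => ⟨hUj a v hv.1, hIs a v hv.2⟩)
    · refine st_le fun a v hv => ?_
      refine Submodule.span_induction (p := fun v _ => S a v ∈ Q) ?_ ?_ ?_ ?_ hv
      · rintro _ ⟨T, hT, n, hn, e, he, rfl⟩
        have h1 := hn.rule a e he.1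
        rw [hTe hT a e he.2, hTe hT a _ (hIs a e he.2), map_zero, sub_zero, sub_zero] at h1
        have heS : S a e ∈ Uj ⊓ I := ⟨hUj a e he.1, hIs a e he.2⟩
        have h2 : n (S a e) - S a (n e) ∈ I :=
          I.sub_mem (hn.memI _ heS) (hIs a _ (hn.memI e he))
        have h3 : n (S a e) ∈ Q := le_sup_right (a := Uj ⊓ I)
          (Submodule.subset_span ⟨T, hT, n, hn, S a e, heS, rfl⟩)
        have h4 : n (S a e) - S a (n e) ∈ Q := le_sup_left (a := Uj ⊓ I) ⟨h1, h2⟩
        have h5 := Q.sub_mem h3 h4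
        rwa [sub_sub_cancel] at h5
      · rw [map_zero]; exact zero_mem _
      · intro x y _ _ hx hy
        rw [map_add]; exact Q.add_mem hx hy
      · intro c x _ hx
        rw [map_smul]; exact Q.smul_mem c hx
  -- the generators
  have hg : ∀ s, ∀ x ∈ Ui, (S s ^ p s) x ∈ Q ⊔ st S (Ui ⊓ I) := by
    intro s x hx
    obtain ⟨b, hb, b', hb', hbb⟩ := hns s
    obtain ⟨T, hT, z, hz, hTz⟩ := exists_adm B s hx hb'
    obtain ⟨n, hn⟩ := hflow T hT
    set u := (S s ^ (p s - 1)) b with hu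
    have huj : u ∈ Uj := pow_mem hUj s _ hb
    have hSu : S s u = (S s ^ p s) b := by
      rw [hu, ← Module.End.mul_apply, ← pow_succ', Nat.sub_add_cancel (hp s)]
    have hSuI : S s u ∈ I := by rw [hSu]; exact B.pj s b hb
    have hSuj : S s u ∈ Uj := hUj s u huj
    have h1 := hn.rule s u huj
    have h2 := hTz s u huj
    have hzS : q (z s) (S s u) = 0 := by rw [B.form.symm]; exact B.orthJ _ hSuI _ (hz s)
    rw [if_pos rfl, hzS, zero_sub, neg_smul, sub_neg_eq_add] at h2
    -- `S s (n u)`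
    obtain ⟨v, hv, w, hw, hvw⟩ := Submodule.mem_sup.mp (hn.mem u huj)
    have h3 : S s (n u) = S s v + S s w := by rw [← hvw, map_add]
    have hmem : S s u ∈ Uj ⊓ I := ⟨hSuj, hSuI⟩
    set c := q b' u with hc
    set g := (S s ^ p s) x with hgdef
    have hgI : g ∈ I := B.pi s x hx
    -- the sum
    set r1 := n (S s u) - S s (n u) - (T s (S s u) - S s (T s u)) with hr1
    set r2 := T s (S s u) - S s (T s u) + c • g with hr2
    have h4 : c • g = r2 + (r1 + S s v) + S s w - n (S s u) := by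
      rw [hr1, hr2, h3]; abel
    have hwst : S s w ∈ st S (Ui ⊓ I) := mem_st s hw
    have h5 : r1 + S s v ∈ Uj := Uj.add_mem h1 (hUj s v hv)
    have h6 : r1 + S s v ∈ I := by
      have : r1 + S s v = c • g - r2 - S s w + n (S s u) := by rw [h4]; abel
      rw [this]
      exact I.add_mem (I.sub_mem (I.sub_mem (I.smul_mem _ hgI) (hstI h2).2) (hstI hwst).2)
        (hn.memI _ hmem)
    have h7 : c • g ∈ Q ⊔ st S (Ui ⊓ I) := by
      rw [h4]
      refine Submodule.sub_mem _ (Submodule.add_mem _ (Submodule.add_mem _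
        (Submodule.mem_sup_right h2) ?_) (Submodule.mem_sup_right hwst)) ?_
      · exact Submodule.mem_sup_left (Submodule.mem_sup_left ⟨h5, h6⟩)
      · exact Submodule.mem_sup_left (Submodule.mem_sup_right
          (Submodule.subset_span ⟨T, hT, n, hn, S s u, hmem, rfl⟩))
    have h8 := Submodule.smul_mem _ c⁻¹ h7
    rwa [smul_smul, inv_mul_cancel₀ hbb, one_smul] at h8
  -- Nakayama
  have hstQ : st S (Q ⊔ st S (Ui ⊓ I)) ≤ Q ⊔ st S (Ui ⊓ I) := by
    rw [st_sup]
    exact sup_le_sup hQS (st_mono S hstI)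
  have h0 : Ui ⊓ I ≤ Q ⊔ st S (Ui ⊓ I) := hgen _ hstQ hg
  have hm : ∀ m, Ui ⊓ I ≤ Q ⊔ (st S)^[m] (Ui ⊓ I) := by
    intro m
    induction m with
    | zero => exact le_sup_right
    | succ m ih =>
      refine ih.trans (sup_le le_sup_left ?_)
      have h1 : (st S)^[m] (Ui ⊓ I) ≤ (st S)^[m] (Q ⊔ st S (Ui ⊓ I)) := iter_le h0 m
      have h2 : ∀ k, (st S)^[k] (Q ⊔ st S (Ui ⊓ I)) ≤ Q ⊔ (st S)^[k + 1] (Ui ⊓ I) := by
        intro k
        induction k with
        | zero => exact le_rfl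
        | succ k ihk =>
          rw [Function.iterate_succ_apply']
          refine (st_mono S ihk).trans ?_
          rw [st_sup, Function.iterate_succ_apply' (st S) (k + 1)]
          exact sup_le_sup_right hQS _
      exact h1.trans (h2 m)
  refine (hm N).trans (sup_le hQX ?_)
  refine le_trans (iter_le inf_le_right N) ?_
  rw [B.hN]
  exact bot_le

end main

end Vale.Agent.P182.H58.Glue7
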