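import Vale.Agent.P182.H983.GDef
import Vale.Agent.P182.H58.Glue7
import Vale.Agent.P182.H398.Inst

/-!
# The two blocks at a base point `t_μ`

The hypotheses of `Glue7.glue_le` from the structure `H983.Blk`.
-/

namespace Vale.Agent.P182.H58.Glue7

open Module Matrix Vale.Agent.P182.H533 Vale.Agent.P182.B1 Vale.Agent.P182.H922
  Vale.Agent.P182.H578 Vale.Agent.P182.H588 Vale.Agent.P182.H983

universe u v w

variable {L : Type u} {V : Type v} {J : Type w} [Field L] [AddCommGroup V] [Module L V]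
  [Fintype J] [DecidableEq J] {𝒟 : Cfg L V J} {u : J → L} {t t' : J → V}
  {W I : Submodule L V} {m : ℕ} {U : Fin m → Submodule L V} {d : Fin m → L} {p : Fin 3 → ℕ}

section base

variable (hG : 𝒟.Good) (hK : KRel 𝒟.arm 𝒟.q 𝒟.Ω (Tt L '' (Ku 𝒟 u : Set (J → V))))
  (B : H983.Blk 𝒟 u t t' W I U d p)

include hG hK B

/-- the residues at a base point, on a block -/
theorem res_tm (x y : L) {k : Fin m} {w : V} (hw : w ∈ U k) (a : Fin 3) :
    Res 𝒟 (tm t t' x y) a w = (x + y * d k) ^ 2 • Res 𝒟 t a w := by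
  have hsw : opr 𝒟.q (Tt L t') (Gm 𝒟.arm 𝒟.Ω a) (Tt L t) w = d k • Res 𝒟 t a w := by
    rw [hK.swap hG.form hG.skew ⟨t', B.ht', rfl⟩ ⟨t, B.ht, rfl⟩ a]
    exact B.op k a w hw
  have h2 : opr 𝒟.q (Tt L t') (Gm 𝒟.arm 𝒟.Ω a) (Tt L t') w = (d k * d k) • Res 𝒟 t a w := by
    rw [H398.opr_of_rel (τ := t) (fun l => by
      rw [hG.form.symm (t' l) w, hG.form.symm (t l) w, hG.form.symm w, hG.form.symm w]
      exact B.star k w hw l) a, hsw, smul_smul]
  show opr 𝒟.q (Tt L (x • t + y • t')) (Gm 𝒟.arm 𝒟.Ω a) (Tt L (x • t + y • t')) w = _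
  rw [Tt_add, Tt_smul, Tt_smul]
  simp only [opr_add_left, opr_add_right, opr_smul_left, opr_smul_right, LinearMap.add_apply,
    LinearMap.smul_apply]
  rw [hsw, h2, B.op k a w hw]
  have h0 : opr 𝒟.q (Tt L t) (Gm 𝒟.arm 𝒟.Ω a) (Tt L t) w = Res 𝒟 t a w := rfl
  rw [h0]
  module

theorem res_mem_U {k : Fin m} {w : V} (hw : w ∈ U k) (a : Fin 3) : Res 𝒟 t a w ∈ U k := by
  have h1 : Res 𝒟 t a w ∈ ⨆ a, (U k).map (Res 𝒟 t a) :=
    Submodule.mem_iSup_of_mem a (Submodule.mem_map_of_mem hw)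
  rwa [B.sumU k] at h1

omit hK in
theorem I_le_W : I ≤ W := B.I_eq ▸ inf_le_left

theorem res_mem_I {e : V} (he : e ∈ I) (a : Fin 3) : Res 𝒟 t a e ∈ I := by
  have hSA : ∀ s, IsSA 𝒟.q (Res 𝒟 t s) := Sop_SA 𝒟.arm hG.form (Tt L t) hG.skew
  have hW : ∀ w ∈ W, Res 𝒟 t a w ∈ W := fun w hw => by
    have h1 : Res 𝒟 t a w ∈ ⨆ a, W.map (Res 𝒟 t a) :=
      Submodule.mem_iSup_of_mem a (Submodule.mem_map_of_mem hw)
    rwa [B.sumW] at h1
  rw [B.I_eq] at he ⊢
  exact ⟨hW e he.1, fun w hw => by rw [hSA]; exact he.2 _ (hW w hw)⟩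

/-- powers of the residues at a base point, on a block -/
theorem res_tm_pow (x y : L) {k : Fin m} {w : V} (hw : w ∈ U k) (s : Fin 3) (r : ℕ) :
    (Res 𝒟 (tm t t' x y) s ^ r) w = ((x + y * d k) ^ 2) ^ r • (Res 𝒟 t s ^ r) w ∧
      (Res 𝒟 t s ^ r) w ∈ U k := by
  induction r with
  | zero => exact ⟨by simp, by simpa using hw⟩
  | succ r ih =>
    refine ⟨?_, ?_⟩
    · rw [pow_succ', Module.End.mul_apply, ih.1, map_smul, res_tm hG hK B x y ih.2, smul_smul,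
        pow_succ' (Res 𝒟 t s), Module.End.mul_apply, ← pow_succ]
    · rw [pow_succ', Module.End.mul_apply]
      exact res_mem_U hG hK B ih.2 s

theorem map_tm {x y : L} {k : Fin m} (hk : x + y * d k ≠ 0) {X : Submodule L V} (hX : X ≤ U k)
    (a : Fin 3) : X.map (Res 𝒟 (tm t t' x y) a) = X.map (Res 𝒟 t a) := by
  have hk2 : (x + y * d k) ^ 2 ≠ 0 := pow_ne_zero 2 hk
  apply le_antisymm
  · rintro _ ⟨w, hw, rfl⟩
    rw [res_tm hG hK B x y (hX hw)]
    exact Submodule.smul_mem _ _ (Submodule.mem_map_of_mem hw)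
  · rintro _ ⟨w, hw, rfl⟩
    have h1 := res_tm hG hK B x y (hX hw) a
    have h2 : Res 𝒟 t a w = ((x + y * d k) ^ 2)⁻¹ • Res 𝒟 (tm t t' x y) a w := by
      rw [h1, smul_smul, inv_mul_cancel₀ hk2, one_smul]
    rw [h2]
    exact Submodule.smul_mem _ _ (Submodule.mem_map_of_mem hw)

theorem st_tm {x y : L} {k : Fin m} (hk : x + y * d k ≠ 0) {X : Submodule L V} (hX : X ≤ U k) :
    st (Res 𝒟 (tm t t' x y)) X = st (Res 𝒟 t) X :=
  iSup_congr fun a => map_tm hG hK B hk hX a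

theorem st_tm_U {x y : L} {k : Fin m} (hk : x + y * d k ≠ 0) :
    st (Res 𝒟 (tm t t' x y)) (U k) = U k := by
  rw [st_tm hG hK B hk le_rfl]
  exact B.sumU k

theorem st_tm_I (x y : L) : st (Res 𝒟 (tm t t' x y)) I ≤ I := by
  refine st_le fun a e he => ?_
  rw [← B.supI] at he
  refine Submodule.iSup_induction (fun k => U k ⊓ I)
    (motive := fun e => Res 𝒟 (tm t t' x y) a e ∈ I) he ?_ ?_ ?_
  · intro k e he
    rw [res_tm hG hK B x y he.1]
    exact I.smul_mem _ (res_mem_I hG hK B he.2 a)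
  · rw [map_zero]; exact I.zero_mem
  · intro e e' h1 h2
    rw [map_add]; exact I.add_mem h1 h2

theorem st_UI (k : Fin m) : st (Res 𝒟 t) (U k ⊓ I) ≤ U k ⊓ I :=
  st_le fun a e he => ⟨res_mem_U hG hK B he.1 a, res_mem_I hG hK B he.2 a⟩

theorem iter_tm {x y : L} (hc : ∀ k, x + y * d k ≠ 0) (r : ℕ) :
    (st (Res 𝒟 (tm t t' x y)))^[r] I = ⨆ k, (st (Res 𝒟 t))^[r] (U k ⊓ I) := by
  induction r with
  | zero => exact B.supI.symm
  | succ r ih =>
    rw [Function.iterate_succ_apply', ih]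
    have hle : ∀ k r, (st (Res 𝒟 t))^[r] (U k ⊓ I) ≤ U k := by
      intro k r
      induction r with
      | zero => exact inf_le_left
      | succ r ih =>
        rw [Function.iterate_succ_apply]
        exact le_trans (iter_le (st_UI hG hK B k) r) ih
    have h1 : st (Res 𝒟 (tm t t' x y)) (⨆ k, (st (Res 𝒟 t))^[r] (U k ⊓ I)) =
        ⨆ k, st (Res 𝒟 (tm t t' x y)) ((st (Res 𝒟 t))^[r] (U k ⊓ I)) := by
      unfold st
      simp only [Submodule.map_iSup]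
      exact iSup_comm
    rw [h1]
    refine iSup_congr fun k => ?_
    rw [st_tm hG hK B (hc k) (hle k r), Function.iterate_succ_apply']

theorem exists_nil {x y : L} (hc : ∀ k, x + y * d k ≠ 0) :
    ∃ N, (st (Res 𝒟 (tm t t' x y)))^[N] I = ⊥ := by
  obtain ⟨N, hN⟩ := B.nil
  refine ⟨N, ?_⟩
  rw [iter_tm hG hK B hc, eq_bot_iff]
  refine iSup_le fun k => ?_
  have h1 : ∀ r, (st (Res 𝒟 t))^[r] (U k ⊓ I) ≤ wordsOn (Res 𝒟 t) (perp 𝒟.q W) r := by
    intro r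
    induction r with
    | zero =>
      refine inf_le_right.trans ?_
      rw [B.I_eq]
      exact inf_le_right
    | succ r ih =>
      rw [Function.iterate_succ_apply']
      exact iSup_mono fun a => Submodule.map_mono ih
  exact (h1 N).trans hN.le

/-- **The two blocks at a base point.** -/
theorem exists_blk7 {x y : L} (hc : ∀ k, x + y * d k ≠ 0) {i j : Fin m} (hij : i ≠ j) :
    ∃ N, Glue7.Blk 𝒟.q (Res 𝒟 (tm t t' x y)) I (U i) (U j) p N := by
  obtain ⟨N, hN⟩ := exists_nil hG hK B hc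
  have hUW : ∀ k, U k ≤ W := fun k => B.supU ▸ le_iSup U k
  have horI : ∀ k, ∀ e ∈ I, ∀ v ∈ U k, 𝒟.q e v = 0 := fun k e he v hv => by
    rw [B.I_eq] at he
    exact he.2 v (hUW k hv)
  have hpw : ∀ k s, ∀ v ∈ U k, (Res 𝒟 (tm t t' x y) s ^ p s) v ∈ I := fun k s v hv => by
    rw [(res_tm_pow hG hK B x y hv s (p s)).1]
    exact I.smul_mem _ (B.pow k s v hv)
  exact ⟨N, {
    form := hG.form
    sa := Sop_SA 𝒟.arm hG.form (Tt L (tm t t' x y)) hG.skew
    hi := st_tm_U hG hK B (hc i)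
    hj := st_tm_U hG hK B (hc j)
    hI := st_tm_I hG hK B x y
    hN := hN
    orth := B.ortho i j hij
    orthI := horI i
    orthJ := horI j
    pi := hpw i
    pj := hpw j }⟩

/-- the pairing at a base point -/
theorem top_tm {x y : L} (hc : ∀ k, x + y * d k ≠ 0) (j : Fin m) (s : Fin 3) :
    ∃ b ∈ U j, ∃ b' ∈ U j, 𝒟.q b' ((Res 𝒟 (tm t t' x y) s ^ (p s - 1)) b) ≠ 0 := by
  obtain ⟨v, hv, w, hw, h⟩ := B.top j s
  refine ⟨w, hw, v, hv, ?_⟩
  rw [(res_tm_pow hG hK B x y hw s (p s - 1)).1, map_smul, smul_eq_mul]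
  exact mul_ne_zero (pow_ne_zero _ (pow_ne_zero 2 (hc j))) h

/-- the generation of the glue at a base point -/
theorem gen_tm {x y : L} (hc : ∀ k, x + y * d k ≠ 0) (i : Fin m) (X : Submodule L V)
    (hX : st (Res 𝒟 (tm t t' x y)) X ≤ X)
    (hp : ∀ s, ∀ v ∈ U i, (Res 𝒟 (tm t t' x y) s ^ p s) v ∈ X) : U i ⊓ I ≤ X := by
  refine le_trans (B.gen i (X ⊓ U i) (fun a => ?_) (fun s => ?_)) inf_le_left
  · refine le_inf ?_ ?_
    · rw [← map_tm hG hK B (hc i) inf_le_right a]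
      refine le_trans (Submodule.map_mono inf_le_left) (le_trans ?_ hX)
      exact le_iSup (fun a => X.map (Res 𝒟 (tm t t' x y) a)) a
    · rintro _ ⟨v, hv, rfl⟩
      exact res_mem_U hG hK B hv.2 a
  · rintro _ ⟨v, hv, rfl⟩
    have h1 := res_tm_pow hG hK B x y hv s (p s)
    refine ⟨?_, h1.2⟩
    have hk2 : ((x + y * d i) ^ 2) ^ p s ≠ 0 := pow_ne_zero _ (pow_ne_zero 2 (hc i))
    have h2 : (Res 𝒟 t s ^ p s) v =
        (((x + y * d i) ^ 2) ^ p s)⁻¹ • (Res 𝒟 (tm t t' x y) s ^ p s) v := by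
      rw [h1.1, smul_smul, inv_mul_cancel₀ hk2, one_smul]
    rw [h2]
    exact X.smul_mem _ (hp s v hv)

variable [FiniteDimensional L V]

/-- **The flows fill the glue**, at a base point. -/
theorem glue_tm {x y : L} (hc : ∀ k, x + y * d k ≠ 0) {i j : Fin m} (hij : i ≠ j)
    (X : Submodule L V) (hX : U j ⊓ I ≤ X)
    (hflow : ∀ T, Adm 𝒟.q (Res 𝒟 (tm t t' x y)) I (U i) (U j) T →
      ∃ n, Flow (Res 𝒟 (tm t t' x y)) I (U i) (U j) X T n) : U i ⊓ I ≤ X := by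
  obtain ⟨N, hB⟩ := exists_blk7 hG hK B hc hij
  exact glue_le hB B.one (fun s => top_tm hG hK B hc j s) (gen_tm hG hK B hc i) X hX hflow

end base

end Vale.Agent.P182.H58.Glue7
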