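import Vale.Agent.P182.H533.Conn

/-!
# Type constancy without Jordan forms, and the dual form of the realisation
-/

namespace Vale.Agent.P182.H58

open Module Vale.Agent.P182.H533

section br

variable {L V : Type*} [Field L] [AddCommGroup V] [Module L V]
  {q : V →ₗ[L] V →ₗ[L] L}

/-- the covariant derivative of an endomorphism -/
def br (c : Conn q) (f : End L V) : End L V where
  toFun v := c.δ (f v) - f (c.δ v)
  map_add' u v := by rw [map_add, map_add, map_add, map_add]; abel
  map_smul' a v := by
    rw [map_smul, c.smul, c.smul, map_add, map_smul, map_smul, RingHom.id_apply, smul_sub]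
    abel

theorem br_apply (c : Conn q) (f : End L V) (v : V) : br c f v = c.δ (f v) - f (c.δ v) := rfl

theorem br_add (c : Conn q) (f g : End L V) : br c (f + g) = br c f + br c g := by
  ext v
  rw [LinearMap.add_apply, br_apply, br_apply, br_apply, LinearMap.add_apply, LinearMap.add_apply,
    map_add]
  abel

theorem br_mul (c : Conn q) (f g : End L V) : br c (f * g) = br c f * g + f * br c g := by
  ext v
  rw [LinearMap.add_apply, Module.End.mul_apply, Module.End.mul_apply, br_apply, br_apply,
    br_apply, Module.End.mul_apply, Module.End.mul_apply, map_sub]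
  abel

theorem br_smul (c : Conn q) (a : L) (f : End L V) : br c (a • f) = c.d a • f + a • br c f := by
  ext v
  rw [LinearMap.add_apply, br_apply, LinearMap.smul_apply, LinearMap.smul_apply, c.smul,
    LinearMap.smul_apply, LinearMap.smul_apply, br_apply, smul_sub]
  abel

theorem br_zero (c : Conn q) : br c (0 : End L V) = 0 := by
  ext v
  rw [br_apply, LinearMap.zero_apply, LinearMap.zero_apply, map_zero, sub_zero]

theorem d_one (c : Conn q) : c.d 1 = 0 := by
  have h := c.leib 1 1
  rw [mul_one, mul_one, one_mul] at h
  exact (left_eq_add.mp h)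

theorem br_one (c : Conn q) : br c (1 : End L V) = 0 := by
  ext v
  rw [br_apply, Module.End.one_apply, Module.End.one_apply, sub_self]
  rfl

theorem br_sum (c : Conn q) {ι : Type*} (s : Finset ι) (f : ι → End L V) :
    br c (∑ i ∈ s, f i) = ∑ i ∈ s, br c (f i) := by
  classical
  induction s using Finset.induction_on with
  | empty => rw [Finset.sum_empty, Finset.sum_empty, br_zero]
  | insert a s ha ih => rw [Finset.sum_insert ha, Finset.sum_insert ha, br_add, ih]

theorem d_natCast (c : Conn q) (n : ℕ) : c.d (n : L) = 0 := by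
  induction n with
  | zero => rw [Nat.cast_zero, map_zero]
  | succ n ih => rw [Nat.cast_succ, map_add, ih, d_one, add_zero]

theorem d_intCast (c : Conn q) (n : ℤ) : c.d (n : L) = 0 := by
  cases n with
  | ofNat n => rw [Int.ofNat_eq_natCast, Int.cast_natCast, d_natCast]
  | negSucc n => rw [Int.cast_negSucc, map_neg, d_natCast, neg_zero]

variable [FiniteDimensional L V]

/-- **The derivative of the trace.** -/
theorem d_trace (c : Conn q) (f : End L V) :
    c.d (LinearMap.trace L V f) = LinearMap.trace L V (br c f) := by
  classical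
  let b := Module.finBasis L V
  have h1 : f = ∑ i, (b.coord i).smulRight (f (b i)) := by
    refine b.ext fun j => ?_
    rw [LinearMap.sum_apply, Finset.sum_eq_single j]
    · rw [LinearMap.smulRight_apply, Basis.coord_apply, Basis.repr_self, Finsupp.single_eq_same,
        one_smul]
    · intro i _ hi
      rw [LinearMap.smulRight_apply, Basis.coord_apply, Basis.repr_self,
        Finsupp.single_eq_of_ne (by exact hi), zero_smul]
    · intro h; exact absurd (Finset.mem_univ _) h
  have h2 : ∀ (φ : Dual L V) (v : V), c.d (LinearMap.trace L V (φ.smulRight v)) =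
      LinearMap.trace L V (br c (φ.smulRight v)) := by
    intro φ v
    let ψ : Dual L V :=
      { toFun := fun w => c.d (φ w) - φ (c.δ w)
        map_add' := fun u w => by simp only [map_add]; abel
        map_smul' := fun a w => by
          simp only [map_smul, smul_eq_mul, c.leib, c.smul, map_add, RingHom.id_apply]
          ring }
    have h3 : br c (φ.smulRight v) = φ.smulRight (c.δ v) + ψ.smulRight v := by
      ext w
      rw [br_apply, LinearMap.smulRight_apply, LinearMap.smulRight_apply, LinearMap.add_apply,
        LinearMap.smulRight_apply, LinearMap.smulRight_apply, c.smul]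
      show c.d (φ w) • v + φ w • c.δ v - φ (c.δ w) • v =
        φ w • c.δ v + (c.d (φ w) - φ (c.δ w)) • v
      rw [sub_smul]
      abel
    rw [h3, map_add, LinearMap.trace_smulRight, LinearMap.trace_smulRight,
      LinearMap.trace_smulRight]
    show c.d (φ v) = φ (c.δ v) + (c.d (φ v) - φ (c.δ v))
    ring
  rw [h1, br_sum, map_sum, map_sum, map_sum]
  exact Finset.sum_congr rfl fun i _ => h2 _ _

omit [FiniteDimensional L V] in
theorem idem_br (c : Conn q) {e : End L V} (he : e * e = e) : e * br c e * e = 0 := by
  have h1 : br c e = br c e * e + e * br c e := by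
    conv_lhs => rw [← he]
    rw [br_mul]
  have h2 : e * br c e * e = e * (br c e * e + e * br c e) * e := by rw [← h1]
  have h3 : e * (br c e * e + e * br c e) * e = e * br c e * e + e * br c e * e := by
    have h4 : e * (br c e * e + e * br c e) * e = e * br c e * (e * e) + e * e * br c e * e := by
      noncomm_ring
    rw [h4, he]
  rw [h3] at h2
  exact (left_eq_add.mp h2)

/-- **Type constancy for an idempotent.** -/
theorem trace_idem (c : Conn q) {e f : End L V} (he : e * e = e) (hf : e * f = f * e) :
    LinearMap.trace L V (e * br c f) = c.d (LinearMap.trace L V (e * f)) := by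
  rw [d_trace, br_mul, map_add, eq_comm, add_eq_right]
  have h1 : br c e = br c e * e + e * br c e := by
    conv_lhs => rw [← he]
    rw [br_mul]
  have h2 : LinearMap.trace L V (e * br c e * f) = 0 := by
    have h3 : e * br c e * f = e * (e * br c e * f) := by
      rw [← mul_assoc, ← mul_assoc, he]
    rw [h3, LinearMap.trace_mul_comm]
    have h4 : e * br c e * f * e = e * br c e * e * f := by
      rw [mul_assoc, ← hf, ← mul_assoc]
    rw [h4, idem_br c he, zero_mul, map_zero]
  have h5 : LinearMap.trace L V (br c e * e * f) = 0 := by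
    rw [mul_assoc, hf, ← mul_assoc, LinearMap.trace_mul_comm, ← mul_assoc]
    exact h2
  rw [h1, add_mul, map_add, h5, h2, add_zero]

omit [FiniteDimensional L V] in
theorem trace_pow_br (c : Conn q) (f : End L V) (n : ℕ) : ∀ g : End L V, Commute g f →
      LinearMap.trace L V (g * br c (f ^ (n + 1))) =
      (n + 1 : L) * LinearMap.trace L V (g * f ^ n * br c f) := by
  induction n with
  | zero =>
    intro g hg
    rw [zero_add, pow_one, pow_zero, mul_one, Nat.cast_zero, zero_add, one_mul]
  | succ n ih =>
    intro g hg
    rw [pow_succ f (n + 1), br_mul, mul_add, map_add, ← mul_assoc g (br c (f ^ (n + 1))) f,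
      LinearMap.trace_mul_comm L _ f, ← mul_assoc, ← mul_assoc, ← hg.eq,
      ih (g * f) (hg.mul_left (Commute.refl f))]
    have h3 : g * f * f ^ n = g * f ^ (n + 1) := by rw [mul_assoc, ← pow_succ']
    rw [h3]
    push_cast
    ring

theorem trace_idem_pow (c : Conn q) {e f : End L V} (he : e * e = e) (hf : e * f = f * e) (k : ℕ) :
    (k + 1 : L) * LinearMap.trace L V (e * f ^ k * br c f) =
      c.d (LinearMap.trace L V (e * f ^ (k + 1))) := by
  have hc : Commute e f := hf
  rw [← trace_idem c he (hc.pow_right (k + 1)), trace_pow_br c f k e hc]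

end br

section dual

variable {L V : Type*} [Field L] [AddCommGroup V] [Module L V] [FiniteDimensional L V]

/-- nondegeneracy of the trace pairing -/
theorem eq_zero_of_trace {X : End L V} (h : ∀ Y : End L V, LinearMap.trace L V (X * Y) = 0) :
    X = 0 := by
  ext v
  rw [LinearMap.zero_apply, ← Module.forall_dual_apply_eq_zero_iff L]
  intro φ
  have h1 := h (LinearMap.smulRight φ v)
  have h2 : X * LinearMap.smulRight φ v = LinearMap.smulRight φ (X v) := by
    ext w; simp
  rw [h2] at h1
  rwa [LinearMap.trace_smulRight] at h1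

/-- functionals are traces -/
theorem exists_trace_eq (φ : End L V →ₗ[L] L) :
    ∃ B : End L V, ∀ X, φ X = LinearMap.trace L V (B * X) := by
  let f : End L V →ₗ[L] Dual L (End L V) :=
    { toFun := fun B =>
        { toFun := fun X => LinearMap.trace L V (B * X)
          map_add' := fun X Y => by rw [mul_add, map_add]
          map_smul' := fun a X => by rw [mul_smul_comm, map_smul, RingHom.id_apply] }
      map_add' := fun B C => by
        ext X
        show LinearMap.trace L V ((B + C) * X) = LinearMap.trace L V (B * X) +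
          LinearMap.trace L V (C * X)
        rw [add_mul, map_add]
      map_smul' := fun a B => by
        ext X
        show LinearMap.trace L V ((a • B) * X) = a • LinearMap.trace L V (B * X)
        rw [smul_mul_assoc, map_smul] }
  have hf : Function.Injective f := by
    rw [injective_iff_map_eq_zero]
    intro B hB
    refine eq_zero_of_trace fun Y => ?_
    exact LinearMap.congr_fun hB Y
  obtain ⟨B, hB⟩ := (LinearMap.injective_iff_surjective_of_finrank_eq_finrank
    (Subspace.dual_finrank_eq (K := L) (V := End L V)).symm).mp hf φ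
  exact ⟨B, fun X => by rw [← hB]; rfl⟩

/-- the adjoint -/
theorem exists_adj {q : V →ₗ[L] V →ₗ[L] L} (hq : IsForm q) (f : End L V) :
    ∃ g : End L V, (∀ u v, q (g u) v = q u (f v)) ∧ ∀ u v, q (f u) v = q u (g v) := by
  obtain ⟨g, hg⟩ := hq.exists_end (q.compl₂ f)
  refine ⟨g, fun u v => by rw [hg]; rfl, fun u v => ?_⟩
  rw [hq.symm, hq.symm u, hg]
  rfl

/-- a skew operator which is orthogonal to the skew operators is zero -/
theorem sk_eq_zero {q : V →ₗ[L] V →ₗ[L] L} (hq : IsForm q) (h2 : (2 : L) ≠ 0) {X : End L V}
    (hX : IsSk q X) (h : ∀ A : End L V, IsSk q A → LinearMap.trace L V (X * A) = 0) : X = 0 := by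
  refine eq_zero_of_trace fun Y => ?_
  obtain ⟨Z, hZ, hZ'⟩ := exists_adj hq Y
  have h1 : IsSk q (Y - Z) := by
    intro u v
    rw [LinearMap.sub_apply, LinearMap.sub_apply, map_sub, map_sub, LinearMap.sub_apply, hZ, hZ']
    ring
  have h3 : LinearMap.trace L V (X * Z) = - LinearMap.trace L V (X * Y) := by
    have h4 : LinearMap.trace L V (X * Z) = LinearMap.trace L V (-(Y * X)) := by
      refine hq.trace_adj fun u v => ?_
      rw [Module.End.mul_apply, LinearMap.neg_apply, Module.End.mul_apply, hX, hZ, map_neg]
    rw [h4, map_neg, LinearMap.trace_mul_comm]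
  have h5 := h _ h1
  rw [mul_sub, map_sub, h3] at h5
  have h6 : (2 : L) * LinearMap.trace L V (X * Y) = 0 := by linear_combination h5
  exact (mul_eq_zero.mp h6).resolve_left h2

theorem trace_sk_sa {q : V →ₗ[L] V →ₗ[L] L} (hq : IsForm q) (h2 : (2 : L) ≠ 0) {X Y : End L V}
    (hX : IsSk q X) (hY : IsSA q Y) : LinearMap.trace L V (X * Y) = 0 := by
  have h4 : LinearMap.trace L V (X * Y) = LinearMap.trace L V (-(Y * X)) := by
    refine hq.trace_adj fun u v => ?_
    rw [Module.End.mul_apply, LinearMap.neg_apply, Module.End.mul_apply, hX, hY, map_neg]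
  rw [map_neg, LinearMap.trace_mul_comm L Y X] at h4
  have h6 : (2 : L) * LinearMap.trace L V (X * Y) = 0 := by linear_combination h4
  exact (mul_eq_zero.mp h6).resolve_left h2

omit [FiniteDimensional L V] in
/-- the commutator of a skew and a self-adjoint operator is self-adjoint -/
theorem sa_comm {q : V →ₗ[L] V →ₗ[L] L} {A S : End L V} (hA : IsSk q A) (hS : IsSA q S) :
    IsSA q (A * S - S * A) := by
  intro u v
  simp only [LinearMap.sub_apply, Module.End.mul_apply, map_sub]
  rw [hA, hS, hS, hA]
  ring

omit [FiniteDimensional L V] in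
/-- the commutator of two self-adjoint operators is skew -/
theorem sk_comm {q : V →ₗ[L] V →ₗ[L] L} {A S : End L V} (hA : IsSA q A) (hS : IsSA q S) :
    IsSk q (A * S - S * A) := by
  intro u v
  simp only [LinearMap.sub_apply, Module.End.mul_apply, map_sub]
  rw [hA, hS, hS, hA]
  ring

/-- **Duality.** -/
theorem exists_B {q : V →ₗ[L] V →ₗ[L] L} (hq : IsForm q) (h2 : (2 : L) ≠ 0) {S : Fin 3 → End L V}
    (hS : ∀ s, IsSA q (S s)) {a : Fin 3 → L} {x : End L V} (hx : IsSA q x)
    (h : ∀ A : Fin 3 → End L V, (∀ s, IsSk q (A s)) → ∑ s, (A s * S s - S s * A s) = 0 →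
      LinearMap.trace L V (x * ∑ s, a s • (A s * S s - S s * A s)) = 0) :
    ∃ B : End L V, IsSA q B ∧ ∀ s, (B - a s • x) * S s = S s * (B - a s • x) := by
  classical
  let Sk : Submodule L (End L V) :=
    { carrier := {A | IsSk q A}
      zero_mem' := fun u v => by simp
      add_mem' := fun {A B} hA hB u v => by
        rw [LinearMap.add_apply, LinearMap.add_apply, map_add, map_add, LinearMap.add_apply,
          hA u v, hB u v]
        ring
      smul_mem' := fun c A hA u v => by
        rw [LinearMap.smul_apply, LinearMap.smul_apply, map_smul, map_smul, LinearMap.smul_apply,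
          hA u v, smul_eq_mul, smul_eq_mul]
        ring }
  let Φ : (Fin 3 → Sk) →ₗ[L] End L V :=
    ∑ s, (LinearMap.mulRight L (S s) - LinearMap.mulLeft L (S s)) ∘ₗ Sk.subtype ∘ₗ
      LinearMap.proj s
  have hΦ : ∀ A, Φ A = ∑ s, ((A s : End L V) * S s - S s * (A s : End L V)) := by
    intro A
    simp [Φ, LinearMap.sum_apply]
  let φ : (Fin 3 → Sk) →ₗ[L] L :=
    LinearMap.trace L V ∘ₗ LinearMap.mulLeft L x ∘ₗ
      (∑ s, a s • ((LinearMap.mulRight L (S s) - LinearMap.mulLeft L (S s)) ∘ₗ Sk.subtype ∘ₗ
      LinearMap.proj s))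
  have hφ : ∀ A, φ A = LinearMap.trace L V
      (x * ∑ s, a s • ((A s : End L V) * S s - S s * (A s : End L V))) := by
    intro A
    simp only [φ, LinearMap.comp_apply, LinearMap.sum_apply, LinearMap.smul_apply,
      LinearMap.sub_apply, LinearMap.mulRight_apply, LinearMap.mulLeft_apply,
      LinearMap.proj_apply, Submodule.subtype_apply]
  have hker : φ ∈ (LinearMap.ker Φ).dualAnnihilator := by
    rw [Submodule.mem_dualAnnihilator]
    intro A hA
    rw [hφ]
    refine h (fun s => A s) (fun s => (A s).2) ?_
    rw [← hΦ]
    exact hA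
  rw [← LinearMap.range_dualMap_eq_dualAnnihilator_ker] at hker
  obtain ⟨ψ, hψ⟩ := hker
  obtain ⟨B', hB'⟩ := exists_trace_eq ψ
  obtain ⟨B'', hB1, hB2⟩ := exists_adj hq B'
  obtain ⟨B, hB⟩ : ∃ B, B = (2 : L)⁻¹ • (B' + B'') := ⟨_, rfl⟩
  have hBs : IsSA q B := by
    intro u v
    rw [hB]
    simp only [LinearMap.smul_apply, LinearMap.add_apply, map_smul, map_add, hB1, hB2]
    ring
  refine ⟨B, hBs, fun s => ?_⟩
  have hax : IsSA q (B - a s • x) := by
    intro u v
    simp only [LinearMap.sub_apply, LinearMap.smul_apply, map_sub, map_smul]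
    rw [hBs, hx]
  rw [← sub_eq_zero]
  refine sk_eq_zero hq h2 (sk_comm hax (hS s)) fun A hA => ?_
  -- the trace of `B` against self-adjoint operators
  have h3 : ∀ Y : End L V, IsSA q Y → LinearMap.trace L V (B * Y) =
      LinearMap.trace L V (B' * Y) := by
    intro Y hY
    have h4 : LinearMap.trace L V (B'' * Y) = LinearMap.trace L V (B' * Y) := by
      have h5 : LinearMap.trace L V (B'' * Y) = LinearMap.trace L V (Y * B') := by
        refine hq.trace_adj fun u v => ?_
        rw [Module.End.mul_apply, Module.End.mul_apply, hB1, hY]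
      rw [h5, LinearMap.trace_mul_comm]
    rw [hB, smul_mul_assoc, map_smul, add_mul, map_add, h4, smul_eq_mul, ← two_mul, ← mul_assoc,
      inv_mul_cancel₀ h2, one_mul]
  have h6 : LinearMap.trace L V (B * (A * S s - S s * A)) =
      a s * LinearMap.trace L V (x * (A * S s - S s * A)) := by
    rw [h3 _ (sa_comm hA (hS s)), ← hB']
    let A' : Fin 3 → Sk := Pi.single s ⟨A, hA⟩
    have e1 : Φ A' = A * S s - S s * A := by
      rw [hΦ, Finset.sum_eq_single s]
      · simp [A']
      · intro t _ ht
        simp [A', Pi.single_eq_of_ne ht]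
      · intro h; exact absurd (Finset.mem_univ _) h
    have e2 : φ A' = a s * LinearMap.trace L V (x * (A * S s - S s * A)) := by
      rw [hφ, Finset.sum_eq_single s]
      · simp only [A', Pi.single_eq_same]
        rw [mul_smul_comm, map_smul, smul_eq_mul]
      · intro t _ ht
        simp [A', Pi.single_eq_of_ne ht]
      · intro h; exact absurd (Finset.mem_univ _) h
    rw [← e2, ← hψ, ← e1]
    rfl
  have h7 : LinearMap.trace L V (((B - a s • x) * S s - S s * (B - a s • x)) * A) =
      - (LinearMap.trace L V (B * (A * S s - S s * A)) -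
        a s * LinearMap.trace L V (x * (A * S s - S s * A))) := by
    have e1 : LinearMap.trace L V ((B - a s • x) * S s * A) =
        LinearMap.trace L V ((B - a s • x) * (S s * A)) := by rw [mul_assoc]
    have e2 : LinearMap.trace L V (S s * (B - a s • x) * A) =
        LinearMap.trace L V ((B - a s • x) * (A * S s)) := by
      rw [mul_assoc, LinearMap.trace_mul_comm, mul_assoc]
    rw [sub_mul, map_sub, e1, e2, sub_mul, sub_mul, map_sub, map_sub, smul_mul_assoc,
      smul_mul_assoc, map_smul, map_smul, mul_sub, mul_sub, map_sub, map_sub, smul_eq_mul,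
      smul_eq_mul]
    ring
  rw [h7, h6, sub_self, neg_zero]

end dual

end Vale.Agent.P182.H58
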