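import Vale.Agent.P182.H58.TC
import Vale.Agent.P182.H89.Struct
import Vale.Agent.P182.H578.Surj

/-!
# `[T]` of the structure theorem: type constancy and the operator `B`
-/

namespace Vale.Agent.P182.H58

open Module Vale.Agent.P182.H533 Vale.Agent.P182.H89

variable {L V : Type*} [Field L] [AddCommGroup V] [Module L V]
  {q : V →ₗ[L] V →ₗ[L] L}

theorem Ta_SA {S : Fin 3 → End L V} (hS : ∀ s, IsSA q (S s)) (a : Fin 3 → L) :
    IsSA q (Ta S a) := by
  intro u v
  simp only [Ta, LinearMap.sum_apply, LinearMap.smul_apply, map_sum, map_smul]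
  exact Finset.sum_congr rfl fun s _ => by rw [hS s]

/-- the derivative of `T_m` for an integral `m` -/
theorem br_Ta {S A : Fin 3 → End L V} (n : Conn q)
    (hn : ∀ s v, n.δ (S s v) = S s (n.δ v) + (A s (S s v) - S s (A s v))) (m : Fin 3 → ℤ) :
    br n (Ta S (fun s => (m s : L))) = ∑ s, (m s : L) • (A s * S s - S s * A s) := by
  rw [Ta, br_sum]
  refine Finset.sum_congr rfl fun s _ => ?_
  rw [br_smul, d_intCast, zero_smul, zero_add]
  congr 1
  ext v
  rw [br_apply, hn, LinearMap.sub_apply, Module.End.mul_apply, Module.End.mul_apply]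
  abel

variable [FiniteDimensional L V]

/-- the derivative of a self-adjoint nilpotent operator is invisible for its commutant -/
theorem trace_nilp (hq : IsForm q) (h2 : (2 : L) ≠ 0) (n : Conn q) {T : End L V} (hT : IsSA q T)
    (hn : IsNilpotent T) {c : End L V} (hc : Commute c T) :
    LinearMap.trace L V (c * br n T) = 0 := by
  obtain ⟨Z, -, hZ⟩ := H578.exists_comm h2 hq n hT hn
  have h1 : br n T = Z * T - T * Z := by
    ext v
    rw [br_apply, hZ, LinearMap.sub_apply, Module.End.mul_apply, Module.End.mul_apply]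
    abel
  rw [h1, mul_sub, map_sub, ← mul_assoc, ← mul_assoc, hc.eq, mul_assoc T c Z,
    LinearMap.trace_mul_comm L T (c * Z), sub_self]

omit [FiniteDimensional L V] in
theorem trace_nilp_eq_zero {f : End L V} (hf : IsNilpotent f) : LinearMap.trace L V f = 0 :=
  (LinearMap.isNilpotent_trace_of_isNilpotent hf).eq_zero

theorem stmtT1 [CharZero L] (S : Fin 3 → End L V) : StmtT1 q S := by
  intro p hN hR N P z hz ζ hζ m hm A hA hs
  have h2 : (2 : L) ≠ 0 := two_ne_zero
  obtain ⟨n, hn⟩ := hR A hA hs
  set T := Ta S (fun s => (m s : L)) with hT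
  have hTSA : IsSA q T := Ta_SA hN.sa _
  have hbr := br_Ta n hn m
  rw [← hT] at hbr
  have hinj : Function.Injective (fun s => (m s : L)) := fun i j h => hm (Int.cast_injective h)
  have hP : P (fun s => (m s : L)) ≠ 0 := hz.ne _ hinj
  set p0 := P (fun s => (m s : L)) with hp0
  have hpow : T ^ N = p0 • z := hz.pow _
  rcases eq_or_ne ζ 0 with h0 | h0
  · -- nilpotent
    have h3 : IsNilpotent z := by
      rw [h0, zero_smul, sub_zero] at hζ
      exact hζ
    have h4 : IsNilpotent T := by
      obtain ⟨k, hk⟩ := h3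
      refine ⟨N * k, ?_⟩
      rw [pow_mul, hpow, smul_pow, hk, smul_zero]
    refine ⟨0, fun c hc => ?_⟩
    rw [← hbr, zero_mul]
    exact trace_nilp hN.form h2 n hTSA h4 hc
  · -- invertible
    obtain ⟨N', rfl⟩ : ∃ N', N = N' + 1 := ⟨N - 1, by have := hz.three_le; omega⟩
    have hzT : z = p0⁻¹ • T ^ (N' + 1) := by
      rw [hpow, smul_smul, inv_mul_cancel₀ hP, one_smul]
    have hzc : ∀ c : End L V, Commute c T → Commute c z := by
      intro c hc
      rw [hzT]
      exact (hc.pow_right _).smul_right _
    set ν := z - ζ • (1 : End L V) with hν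
    have hzν : z = ζ • (1 : End L V) + ν := by rw [hν]; abel
    have hunit : IsUnit z := by
      have h5 : IsUnit (ζ • (1 : End L V)) := by
        rw [← Algebra.algebraMap_eq_smul_one]
        exact (IsUnit.mk0 ζ h0).map (algebraMap L (End L V))
      have h6 := hζ.isUnit_add_left_of_commute h5 ((Commute.one_right ν).smul_right ζ)
      rw [hzν]
      exact h6
    obtain ⟨uz, huz⟩ := hunit
    obtain ⟨y, hy⟩ : ∃ y : End L V, y = ↑uz⁻¹ := ⟨_, rfl⟩
    have hzy : z * y = 1 := by rw [← huz, hy, uz.mul_inv]
    have hyc : ∀ c : End L V, Commute c z → Commute c y := by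
      intro c hc
      rw [← huz] at hc
      rw [hy]
      exact hc.units_inv_right
    have hTz : Commute T z := hzc T (Commute.refl T)
    obtain ⟨W, hW⟩ : ∃ W : End L V, W = p0⁻¹ • (T * y) := ⟨_, rfl⟩
    have hcW : ∀ c : End L V, Commute c T → Commute c W := fun c hc => by
      rw [hW]
      exact (hc.mul_right (hyc c (hzc c hc))).smul_right _
    have hTW : W * T ^ N' = 1 := by
      rw [((hcW T (Commute.refl T)).symm.pow_right N').eq, hW, mul_smul_comm, ← mul_assoc,
        ← pow_succ, hpow, smul_mul_assoc, smul_smul, inv_mul_cancel₀ hP, one_smul, hzy]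
    have hN1 : ((N' : L) + 1) ≠ 0 := Nat.cast_add_one_ne_zero N'
    refine ⟨((N' : L) + 1)⁻¹ * (n.d p0 * p0⁻¹ + n.d ζ * ζ⁻¹), fun c hc => ?_⟩
    have hcT : Commute c T := hc
    rw [← hbr]
    -- the derivative of the power
    have e1 := trace_pow_br n T N' (c * W) (hcT.mul_left (hcW T (Commute.refl T)).symm)
    rw [show c * W * T ^ N' = c from by rw [mul_assoc, hTW, mul_one], hpow, br_smul, mul_add,
      map_add, mul_smul_comm, mul_smul_comm, map_smul, map_smul, smul_eq_mul, smul_eq_mul] at e1
    have e2 : LinearMap.trace L V (c * W * z) = p0⁻¹ * LinearMap.trace L V (c * T) := by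
      rw [hW, mul_smul_comm, smul_mul_assoc, map_smul, smul_eq_mul, ← mul_assoc, mul_assoc (c * T),
        (show y * z = 1 by rw [← huz, hy, uz.inv_mul]), mul_one]
    have hzSA : IsSA q z := by
      rw [hzT]
      have h7 : ∀ k : ℕ, IsSA q (T ^ k) := by
        intro k
        induction k with
        | zero => intro u v; rw [pow_zero]; rfl
        | succ k ih =>
          intro u v
          rw [pow_succ, Module.End.mul_apply, ih, hTSA, ← Module.End.mul_apply, ← pow_succ',
            pow_succ]
      intro u v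
      rw [LinearMap.smul_apply, LinearMap.smul_apply, map_smul, map_smul, LinearMap.smul_apply,
        h7 (N' + 1) u v]
    have hνSA : IsSA q ν := by
      intro u v
      rw [hν]
      simp only [LinearMap.sub_apply, LinearMap.smul_apply, Module.End.one_apply, map_sub,
        map_smul, hzSA u v]
    have hcWz : Commute (c * W) z := (hzc c hcT).mul_left (hzc W (hcW T (Commute.refl T)).symm)
    have hcWν : Commute (c * W) ν := hcWz.sub_right ((Commute.one_right _).smul_right ζ)
    have e3 : br n z = n.d ζ • (1 : End L V) + br n ν := by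
      rw [hzν, br_add, br_smul, br_one, smul_zero, add_zero]
    have e4 : LinearMap.trace L V (c * W * br n z) = n.d ζ * LinearMap.trace L V (c * W) := by
      rw [e3, mul_add, map_add, trace_nilp hN.form h2 n hνSA hζ hcWν, add_zero, mul_smul_comm,
        map_smul, mul_one, smul_eq_mul]
    have e5 : LinearMap.trace L V (c * W) = ζ⁻¹ * (p0⁻¹ * LinearMap.trace L V (c * T)) := by
      have h8 : LinearMap.trace L V (c * W * z) = ζ * LinearMap.trace L V (c * W) := by
        conv_lhs => rw [hzν]
        rw [mul_add, map_add, mul_smul_comm, mul_one, map_smul, smul_eq_mul, add_eq_left]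
        refine trace_nilp_eq_zero ?_
        exact hcWν.isNilpotent_mul_left hζ
      rw [← e2, h8, ← mul_assoc, inv_mul_cancel₀ h0, one_mul]
    rw [e2, e4, e5] at e1
    have e6 : LinearMap.trace L V (c * br n T) = ((N' : L) + 1)⁻¹ *
        (((N' : L) + 1) * LinearMap.trace L V (c * br n T)) := by
      rw [← mul_assoc, inv_mul_cancel₀ hN1, one_mul]
    rw [e6, ← e1]
    have e7 : p0 * (n.d ζ * (ζ⁻¹ * (p0⁻¹ * LinearMap.trace L V (c * T)))) =
        n.d ζ * ζ⁻¹ * LinearMap.trace L V (c * T) := by
      field_simp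
    rw [e7]
    ring

theorem stmtT2 [CharZero L] (S : Fin 3 → End L V) : StmtT2 q S := by
  intro p hN hR N P z hz ζ hζ m hm c hc hcT h0
  refine exists_B hN.form two_ne_zero hN.sa hc fun A hA hs => ?_
  obtain ⟨κ, hκ⟩ := stmtT1 S p hN hR N P z hz ζ hζ m hm A hA hs
  rw [hκ c hcT, h0, mul_zero]

end Vale.Agent.P182.H58
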