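import Vale.Agent.P182.H89.Fin
import Vale.Agent.P182.H55.SemiS
import Vale.Agent.P182.H58.T12

/-!
# The structure theorem of the family `S_1, S_2, S_3`
-/

namespace Vale.Agent.P182.H58

open Module Vale.Agent.P182.H89

universe u v

/-- **The structure theorem.** -/
theorem structThm {L : Type u} [Field L] [IsAlgClosed L] [CharZero L]
    (V : Type v) [AddCommGroup V] [Module L V] [FiniteDimensional L V]
    (q : V →ₗ[L] V →ₗ[L] L) (S : Fin 3 → End L V) (p : Fin 3 → ℕ)
    (h : Nul q S p) (hr : RealS q S) : StructS q S :=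
  struct_of (fun _ _ _ _ _ S => H58.stmtT1 S) (fun _ _ _ _ _ S => H58.stmtT2 S)
    (fun _ _ _ _ _ S => H55.stmtS (H58.stmtT2 S)) _ V q S p le_rfl h hr

/-- The same, in the packaged form of `H89.Struct`. -/
theorem structThm' {L : Type u} [Field L] [IsAlgClosed L] [CharZero L] :
    ∀ (V : Type v) [AddCommGroup V] [Module L V] [FiniteDimensional L V]
    (q : V →ₗ[L] V →ₗ[L] L) (S : Fin 3 → End L V), StmtS q S :=
  fun _ _ _ _ _ S => H55.stmtS (H58.stmtT2 S)

end Vale.Agent.P182.H58
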