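import Vale.Agent.P182.H58.Glue7I
import Vale.Agent.P182.H818.Solve

/-!
# Chains give families in `WF`

(P4) of helper534: the parity argument for one chain `T` at the two base points `(x, y)` and
`(x', y')` with opposite values on the block `i` and the same value on the block `j`.
-/

namespace Vale.Agent.P182.H58.Glue7

open Module Matrix Vale.Agent.P182.H533 Vale.Agent.P182.B1 Vale.Agent.P182.H922
  Vale.Agent.P182.H578 Vale.Agent.P182.H588 Vale.Agent.P182.H983

universe u v w

variable {L : Type u} {V : Type v} {J : Type w} [Field L] [AddCommGroup V] [Module L V]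
  [Fintype J] [DecidableEq J] {𝒟 : Cfg L V J} {u : J → L} {t t' : J → V}
  {W I : Submodule L V} {m : ℕ} {U : Fin m → Submodule L V} {d : Fin m → L} {p : Fin 3 → ℕ}

section base

/-- a tensor with second leg in `X'`, on a combination of vectors -/
theorem ten_comb {q : V →ₗ[L] V →ₗ[L] L} {X X' : Submodule L V} {T : End L V}
    (hT : T ∈ Ten q X X') {a b : V} {e : L} (h : ∀ w ∈ X', q b w = e * q a w) (x y : L) :
    T (x • a + y • b) = (x + y * e) • T a := by
  have h1 : x • a + y • b - (x + y * e) • a ∈ perp q X' := by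
    intro w hw
    simp only [map_add, map_sub, map_smul, LinearMap.add_apply, LinearMap.sub_apply,
      LinearMap.smul_apply, smul_eq_mul]
    rw [h w hw]
    ring
  have h3 := hT.2 _ h1
  rwa [map_sub, map_smul, sub_eq_zero] at h3

variable (hG : 𝒟.Good) (hK : KRel 𝒟.arm 𝒟.q 𝒟.Ω (Tt L '' (Ku 𝒟 u : Set (J → V))))
  (B : H983.Blk 𝒟 u t t' W I U d p)

include hG B

theorem star' {k : Fin m} {w : V} (hw : w ∈ U k) (l : J) :
    𝒟.q (t' l) w = d k * 𝒟.q (t l) w := B.star k w hw l

theorem star_om {k : Fin m} {w : V} (hw : w ∈ U k) (l : J) :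
    𝒟.q (𝒟.om t' l) w = d k * 𝒟.q (𝒟.om t l) w := by
  rw [Cfg.om, Cfg.om, map_sum, map_sum, LinearMap.sum_apply, LinearMap.sum_apply,
    Finset.mul_sum]
  refine Finset.sum_congr rfl fun k' _ => ?_
  rw [map_smul, map_smul, LinearMap.smul_apply, LinearMap.smul_apply, smul_eq_mul, smul_eq_mul,
    star' hG B hw]
  ring

/-- a family of tensors with second leg in `U k`, at a base point -/
theorem fam_tm {X : Submodule L V} {T : Fin 3 → End L V} (x y : L) {k : Fin m}
    (hT : ∀ a, T a ∈ Ten 𝒟.q X (U k)) :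
    fam 𝒟 (tm t t' x y) T = (x + y * d k) • fam 𝒟 t T := by
  refine Prod.ext (funext fun l => ?_) (funext fun l => ?_)
  · exact ten_comb (hT _) (fun w hw => star' hG B hw l) x y
  · show T (𝒟.arm l) (𝒟.om (x • t + y • t') l) = (x + y * d k) • T (𝒟.arm l) (𝒟.om t l)
    rw [om_add, om_smul, om_smul]
    exact ten_comb (hT _) (fun w hw => star_om hG B hw l) x y

omit hG B [DecidableEq J] in
theorem fam_add (T T' : Fin 3 → End L V) : fam 𝒟 t (T + T') = fam 𝒟 t T + fam 𝒟 t T' := rfl

theorem perp_of_ne {i k : Fin m} (h : k ≠ i) {w : V} (hw : w ∈ U k) : w ∈ perp 𝒟.q (U i) :=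
  fun v hv => B.ortho k i h w hw v hv

include hK

variable [FiniteDimensional L V]

omit hG hK B [Fintype J] [DecidableEq J] in
/-- the flip of a tensor -/
theorem flip_mem (hq : IsForm 𝒟.q) {X Y : Submodule L V} {T T' : End L V}
    (h : ∀ v w, 𝒟.q (T v) w = 𝒟.q v (T' w)) (hT : T ∈ Ten 𝒟.q X Y) : T' ∈ Ten 𝒟.q Y X := by
  have h1 : T' ∈ H818.Tn 𝒟.q Y X := H818.adj_mem_Tn hq (T := T) (fun u v => h u v) ⟨hT.1, hT.2⟩
  exact ⟨h1.1, h1.2⟩

/-- **(P4)** -/
theorem chain_WF (h2 : (2 : L) ≠ 0) {x y x' y' : L} {i j : Fin m}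
    (hi : x + y * d i ≠ 0) (hj : x + y * d j ≠ 0)
    (hx : x' + y' * d i = -(x + y * d i)) (hy : x' + y' * d j = x + y * d j)
    (hS : RowS 𝒟 u t t' W I x y) (hS' : RowS 𝒟 u t t' W I x' y')
    {T Td : Fin 3 → End L V} (hT : ∀ a, T a ∈ Ten 𝒟.q (U i) (U j))
    (hTd : ∀ a v w, 𝒟.q (T a v) w = 𝒟.q v (Td a w))
    (hsum : ∑ a, (Res 𝒟 (tm t t' x y) a * T a - T a * Res 𝒟 (tm t t' x y) a) = 0)
    (hcomm : ∀ a, ∀ w ∈ U j, Res 𝒟 (tm t t' x y) a (T a w) - T a (Res 𝒟 (tm t t' x y) a w) ∈ I) :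
    fam 𝒟 t T ∈ WF 𝒟 t W I u ∧ fam 𝒟 t Td ∈ WF 𝒟 t W I u := by
  have hUW : ∀ k, U k ≤ W := fun k => B.supU ▸ le_iSup U k
  have hSA : ∀ (τ : J → V) s, IsSA 𝒟.q (Res 𝒟 τ s) := fun τ =>
    Sop_SA 𝒟.arm hG.form (Tt L τ) hG.skew
  have hTd' : ∀ a v w, 𝒟.q (Td a v) w = 𝒟.q v (T a w) := fun a v w => by
    rw [hG.form.symm, ← hTd, hG.form.symm]
  have hTdm : ∀ a, Td a ∈ Ten 𝒟.q (U j) (U i) := fun a => flip_mem hG.form (hTd a) (hT a)
  -- the residues at the two base points
  set S := Res 𝒟 (tm t t' x y) with hSdef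
  set S' := Res 𝒟 (tm t t' x' y') with hSdef'
  have hSi : ∀ a, ∀ w ∈ U i, S' a w = S a w := fun a w hw => by
    rw [hSdef, hSdef', res_tm hG hK B _ _ hw, res_tm hG hK B _ _ hw, hx, neg_sq]
  have hSj : ∀ a, ∀ w ∈ U j, S' a w = S a w := fun a w hw => by
    rw [hSdef, hSdef', res_tm hG hK B _ _ hw, res_tm hG hK B _ _ hw, hy]
  have hUS : ∀ k a, ∀ w ∈ U k, S a w ∈ U k := fun k a w hw => by
    rw [hSdef, res_tm hG hK B _ _ hw]
    exact (U k).smul_mem _ (res_mem_U hG hK B hw a)
  have e1 : ∀ a, S' a * T a = S a * T a := fun a => LinearMap.ext fun v => hSi a _ ((hT a).1 v)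
  have e2 : ∀ a, T a * S' a = T a * S a := fun a => by
    refine LinearMap.ext fun v => hG.form.ext fun w => ?_
    rw [Module.End.mul_apply, Module.End.mul_apply, hTd, hTd, hSA, hSA,
      hSj a _ ((hTdm a).1 w)]
  have e3 : ∀ a, S' a * Td a = S a * Td a := fun a =>
    LinearMap.ext fun v => hSj a _ ((hTdm a).1 v)
  have e4 : ∀ a, Td a * S' a = Td a * S a := fun a => by
    refine LinearMap.ext fun v => hG.form.ext fun w => ?_
    rw [Module.End.mul_apply, Module.End.mul_apply, hTd', hTd', hSA, hSA,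
      hSi a _ ((hT a).1 w)]
  -- the commutation on `W`
  have hSW : ∀ a, ∀ w ∈ W, S a w ∈ W := by
    intro a w hw
    rw [← B.supU] at hw
    refine Submodule.iSup_induction U (motive := fun w => S a w ∈ W) hw
      (fun k w hw => hUW k (hUS k a w hw)) (by rw [map_zero]; exact W.zero_mem) ?_
    intro w w' h h'
    rw [map_add]; exact W.add_mem h h'
  have hk : ∀ a, ∀ w ∈ W, T a (S a w) - S a (T a w) ∈ I := by
    intro a w hw
    rw [← B.supU] at hw
    refine Submodule.iSup_induction U (motive := fun w => T a (S a w) - S a (T a w) ∈ I) hw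
      (fun k w hw => ?_) (by simp only [map_zero, sub_zero]; exact I.zero_mem) ?_
    · by_cases hkj : k = j
      · subst hkj
        have h1 := I.neg_mem (hcomm a w hw)
        rwa [neg_sub] at h1
      · rw [(hT a).2 _ (perp_of_ne hG B hkj hw),
          (hT a).2 _ (perp_of_ne hG B hkj (hUS k a w hw)), map_zero, sub_zero]
        exact I.zero_mem
    · intro w w' h h'
      have : T a (S a (w + w')) - S a (T a (w + w')) =
          T a (S a w) - S a (T a w) + (T a (S a w') - S a (T a w')) := by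
        simp only [map_add]; abel
      rw [this]; exact I.add_mem h h'
  have hk' : ∀ a, ∀ w ∈ W, Td a (S a w) - S a (Td a w) ∈ I := by
    intro a w hw
    rw [B.I_eq]
    refine ⟨W.sub_mem (hUW j ((hTdm a).1 _)) (hSW a _ (hUW j ((hTdm a).1 _))), fun v hv => ?_⟩
    have h1 := hk a v hv
    rw [B.I_eq] at h1
    have h3 := h1.2 w hw
    rw [map_sub, LinearMap.sub_apply, hTd', hSA, hSA, hTd', ← map_sub, hG.form.symm,
      ← neg_sub, map_neg, LinearMap.neg_apply, h3, neg_zero]
  -- `β`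
  have hβm : ∀ a, (T + Td) a ∈ Ten 𝒟.q W W := fun a => by
    refine ⟨fun v => ?_, fun v hv => ?_⟩
    · rw [Pi.add_apply, LinearMap.add_apply]
      exact W.add_mem (hUW i ((hT a).1 v)) (hUW j ((hTdm a).1 v))
    · rw [Pi.add_apply, LinearMap.add_apply, (hT a).2 v fun w hw => hv w (hUW j hw),
        (hTdm a).2 v fun w hw => hv w (hUW i hw), add_zero]
  have hβs : ∀ a, IsSA 𝒟.q ((T + Td) a) := fun a v w => by
    rw [Pi.add_apply, LinearMap.add_apply, LinearMap.add_apply, map_add, map_add,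
      LinearMap.add_apply, hTd, hTd', add_comm]
  have hβc : ∀ a, ∀ w ∈ W, (T + Td) a (S a w) - S a ((T + Td) a w) ∈ I := fun a w hw => by
    have : (T + Td) a (S a w) - S a ((T + Td) a w) =
        T a (S a w) - S a (T a w) + (Td a (S a w) - S a (Td a w)) := by
      simp only [Pi.add_apply, LinearMap.add_apply, map_add]; abel
    rw [this]; exact I.add_mem (hk a w hw) (hk' a w hw)
  have hsum' : ∑ a, (S a * Td a - Td a * S a) = 0 := by
    refine LinearMap.ext fun v => hG.form.ext fun w => ?_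
    have h1 : 𝒟.q ((∑ a, (S a * Td a - Td a * S a)) v) w =
        𝒟.q v ((∑ a, -(S a * T a - T a * S a)) w) := by
      rw [LinearMap.sum_apply, LinearMap.sum_apply, map_sum, map_sum, LinearMap.sum_apply]
      refine Finset.sum_congr rfl fun a _ => ?_
      rw [LinearMap.sub_apply, Module.End.mul_apply, Module.End.mul_apply, map_sub,
        LinearMap.sub_apply, hSA, hTd', hTd', hSA, ← map_sub]
      congr 1
      rw [neg_sub]
      rfl
    rw [h1, Finset.sum_neg_distrib, hsum, neg_zero, LinearMap.zero_apply, LinearMap.zero_apply,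
      map_zero, map_zero, LinearMap.zero_apply]
  have hβsum : ∑ a, (S a * (T + Td) a - (T + Td) a * S a) = 0 := by
    have h1 : ∀ a, S a * (T + Td) a - (T + Td) a * S a =
        (S a * T a - T a * S a) + (S a * Td a - Td a * S a) := fun a => by
      rw [Pi.add_apply, mul_add, add_mul]; abel
    rw [Finset.sum_congr rfl fun a _ => h1 a, Finset.sum_add_distrib, hsum, hsum', add_zero]
  -- the two base points
  have f1 : fam 𝒟 (tm t t' x y) (T + Td) =
      (x + y * d j) • fam 𝒟 t T + (x + y * d i) • fam 𝒟 t Td := by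
    rw [fam_add, fam_tm hG B x y hT, fam_tm hG B x y hTdm]
  have f2 : fam 𝒟 (tm t t' x' y') (T + Td) =
      (x + y * d j) • fam 𝒟 t T - (x + y * d i) • fam 𝒟 t Td := by
    rw [fam_add, fam_tm hG B x' y' hT, fam_tm hG B x' y' hTdm, hx, hy, neg_smul,
      ← sub_eq_add_neg]
  have g1 := hS (T + Td) hβm hβs hβc hβsum
  have g2 := hS' (T + Td) hβm hβs
    (fun a w hw => by
      have q1 : (T + Td) a (S' a w) = (T + Td) a (S a w) := by
        have h1 : ((T + Td) a * S' a) w = ((T + Td) a * S a) w := by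
          rw [Pi.add_apply, add_mul, add_mul, e2, e4]
        exact h1
      have q2 : S' a ((T + Td) a w) = S a ((T + Td) a w) := by
        have h1 : (S' a * (T + Td) a) w = (S a * (T + Td) a) w := by
          rw [Pi.add_apply, mul_add, mul_add, e1, e3]
        exact h1
      show (T + Td) a (S' a w) - S' a ((T + Td) a w) ∈ I
      rw [q1, q2]
      exact hβc a w hw)
    (by
      have h1 : ∀ a, S' a * (T + Td) a - (T + Td) a * S' a =
          S a * (T + Td) a - (T + Td) a * S a := fun a => by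
        rw [Pi.add_apply, mul_add, mul_add, add_mul, add_mul, e1, e2, e3, e4]
      rw [Finset.sum_congr rfl fun a _ => h1 a]
      exact hβsum)
  rw [f1] at g1
  rw [f2] at g2
  have h3 := (WF 𝒟 t W I u).add_mem g1 g2
  have h4 := (WF 𝒟 t W I u).sub_mem g1 g2
  constructor
  · have h5 : (x + y * d j) • fam 𝒟 t T + (x + y * d i) • fam 𝒟 t Td +
        ((x + y * d j) • fam 𝒟 t T - (x + y * d i) • fam 𝒟 t Td) =
        (2 * (x + y * d j)) • fam 𝒟 t T := by module
    rw [h5] at h3
    have h6 := (WF 𝒟 t W I u).smul_mem (2 * (x + y * d j))⁻¹ h3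
    rwa [smul_smul, inv_mul_cancel₀ (mul_ne_zero h2 hj), one_smul] at h6
  · have h5 : (x + y * d j) • fam 𝒟 t T + (x + y * d i) • fam 𝒟 t Td -
        ((x + y * d j) • fam 𝒟 t T - (x + y * d i) • fam 𝒟 t Td) =
        (2 * (x + y * d i)) • fam 𝒟 t Td := by module
    rw [h5] at h4
    have h6 := (WF 𝒟 t W I u).smul_mem (2 * (x + y * d i))⁻¹ h4
    rwa [smul_smul, inv_mul_cancel₀ (mul_ne_zero h2 hi), one_smul] at h6

end base

end Vale.Agent.P182.H58.Glue7
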